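import Crest.Agent.N255.Dp.Ada
import Crest.Agent.N255.Tp.Phi
import Crest.Agent.N255.Wn.Re
import Crest.Agent.N255.Wd.Win

/-!
# Row 255 (helper77): wall variables with scales (supports `Φ`)

`Var k i A B`: for the sides `A 0 ⊆ A 1 ⊆ … ⊆ B 1 ⊆ B 0` a finite family of classes for every scale.
`Win`: nested windows of constancy.  `ct`: cut classes.
-/

set_option autoImplicit false
open Set Filter Topology

noncomputable section

namespace Crest.Agent.N255.Wv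

open Tp Wi Dp Wn

variable {X : Type} [TopologicalSpace X] (k : Type) [Field k]

/-- the classes of one side of a wall -/
structure Var (i : ℕ) (A B : ℕ → Set X) where
  n : ℕ → ℕ
  h : ∀ m, Fin (n m) → Co k (i + 1) X
  mem : ∀ m j, h m j ∈ ZP k (B (m + 1)) k (i + 1)
  van : ∀ m j, h (m + 1) j ∈ (On (A m)).van k k (i + 1)
  sp0 : ∀ φ ∈ ZP k (B 1) k (i + 1), ∃ x : Fin (n 0) → k,
    φ - ∑ j, x j • h 0 j ∈ BP k (B 2) k (i + 1)
  sp : ∀ m, ∀ φ ∈ ZP k (B (m + 2)) k (i + 1), ∃ ψ ∈ ZP k (B (m + 1)) k (i + 1),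
    ∃ x : Fin (n (m + 1)) → k, φ - ψ - ∑ j, x j • h (m + 1) j ∈ BP k (B (m + 3)) k (i + 1)
  ind : ∀ m (x : Fin (n m) → k), ∑ j, x j • h m j ∈ BP k (B (m + 2)) k (i + 1) → ∀ j, x j = 0

variable {k} {i : ℕ} {A B : ℕ → Set X}

theorem cob_mem_ZP {U : Set X} {η : Co k i X} (h : η ∈ Cc k univ k i) :
    cob k η ∈ ZP k U k (i + 1) := ⟨cob_mem_Cc h, BP_le_Z (cob_mem_BP h)⟩

/-- existence; the classes of scale zero are prescribed -/
theorem exists_var (hB : Antitone B)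
    (hc : ∀ m, ZP k (B (m + 2)) k (i + 1) ≤ ZP k (B (m + 1)) k (i + 1) ⊔ BP k (A m) k (i + 1))
    (hf : ∀ m, FR (ZP k (B (m + 2)) k (i + 1)) (BP k (B (m + 3)) k (i + 1)))
    {n₀ : ℕ} (x₀ : Fin n₀ → Co k (i + 1) X) (h1 : ∀ j, x₀ j ∈ ZP k (B 1) k (i + 1))
    (h2 : ∀ φ ∈ ZP k (B 1) k (i + 1), ∃ x : Fin n₀ → k,
      φ - ∑ j, x j • x₀ j ∈ BP k (B 2) k (i + 1))
    (h3 : ∀ x : Fin n₀ → k, ∑ j, x j • x₀ j ∈ BP k (B 2) k (i + 1) → ∀ j, x j = 0) :
    ∃ V : Var k i A B, ∃ e : V.n 0 = n₀, ∀ j, V.h 0 j = x₀ (j.cast e) := by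
  have key : ∀ m, ∃ (n : ℕ) (x : Fin n → Co k (i + 1) X),
      Ada (ZP k (B (m + 2)) k (i + 1) ⊓ (On (A m)).van k k (i + 1)) (BP k (B (m + 3)) k (i + 1))
        (∅ ∪ ∅) x := fun m =>
    exists_ada ((hf m).mono inf_le_left le_rfl) IsChain.empty IsChain.empty
  choose n x hx using key
  refine ⟨⟨fun m => Nat.rec n₀ (fun m _ => n m) m, fun m => Nat.rec x₀ (fun m _ => x m) m,
    fun m => ?_, fun m j => ((hx m).mem j).2, h2, fun m φ hφ => ?_, fun m => ?_⟩, rfl, fun _ => rfl⟩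
  · cases m with
    | zero => exact h1
    | succ m => exact fun j => ((hx m).mem j).1
  · obtain ⟨ψ, h3, β, h4, rfl⟩ := Submodule.mem_sup.1 (hc m hφ)
    obtain ⟨η, e1, e2⟩ := mem_BP.1 h4
    have h5 : β ∈ ZP k (B (m + 2)) k (i + 1) := by
      simpa using sub_mem hφ (ZP_mono (hB (Nat.le_succ _)) h3)
    obtain ⟨c, hc⟩ := (hx m).span _ ⟨sub_mem h5 (cob_mem_ZP e1), e2⟩
    refine ⟨ψ, h3, c, ?_⟩
    have := add_mem hc (cob_mem_BP (U := B (m + 3)) e1)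
    convert this using 1
    abel
  · cases m with
    | zero => exact h3
    | succ m => exact (hx m).ind

/-- closed on small simplices: closed after a change on big simplices -/
theorem zp_of_sm {𝒰 : Set (Set X)} (hU : ∀ U ∈ 𝒰, IsOpen U) {W : Set X} (hW : W ⊆ ⋃₀ 𝒰)
    {A : Type} [AddCommGroup A] [Module k A] {φ : Co A i X} (h : φ ∈ Cc k univ A i)
    (h' : φ ∈ ((On W).inf (Sm 𝒰)).Z k A i) : ∃ ψ ∈ ZP k W A i, φ - ψ ∈ (Sm 𝒰).van k A i :=
  ⟨exs k 𝒰 φ, ⟨exs_Cc h, exs_Z hU hW h'⟩, by simpa using neg_mem (exs_sub (k := k) (𝒰 := 𝒰) (θ := φ))⟩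

/-- the cut of `a` along `C` -/
def ct (C : Set X) (a : Co k i X) : Co k i X := glue C a 0

section ct

variable {C U : Set X} {a : Co k i X}

theorem ct_sub : ct C a - a ∈ (On C).van k k i := glue_l a 0

theorem ct_van : ct C a ∈ (On Cᶜ).van k k i := by simpa [ct] using glue_r (A := C) a 0

theorem ct_zero {σ : Sx i X} (h : a σ = 0) : ct C a σ = 0 := by
  simp [ct, glue, cup, fr_self, h]

theorem ct_mem_van {P : Sb X} (h : a ∈ P.van k k i) : ct C a ∈ P.van k k i :=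
  fun σ hσ => ct_zero (h σ hσ)

theorem ct_Cc (h : a ∈ Cc k U k i) : ct C a ∈ Cc k U k i :=
  let ⟨K, a, b, c⟩ := h; ⟨K, a, b, ct_mem_van c⟩

theorem ct_ZP (h : a ∈ ZP k U k i) (hC : C ⊆ U) : ct C a ∈ ZP k C k i :=
  ⟨ct_Cc h.1, by simpa using add_mem (Sb.van_le_Z (ct_sub (C := C) (a := a))) (ZP_mono hC h).2⟩

theorem ct_ZP' (h : a ∈ Cc k univ k i) : ct C a ∈ ZP k Cᶜ k i := ⟨ct_Cc h, Sb.van_le_Z ct_van⟩

end ct

namespace Var

variable (V : Var k i A B)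

/-- the variables of scale at most `K` -/
abbrev Ix (K : ℕ) : Type := Σ m : Fin (K + 1), Fin (V.n m)

variable {V} {K : ℕ}

/-- the scale -/
def sc (q : V.Ix K) : ℕ := q.1

/-- the class -/
def cl (q : V.Ix K) : Co k (i + 1) X := V.h q.1 q.2

theorem sc_le (q : V.Ix K) : sc q ≤ K := Nat.lt_succ_iff.1 q.1.2

theorem cl_mem (q : V.Ix K) : cl q ∈ ZP k (B (sc q + 1)) k (i + 1) := V.mem _ _

theorem cl_van (q : V.Ix K) {m : ℕ} (h : sc q = m + 1) : cl q ∈ (On (A m)).van k k (i + 1) := by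
  obtain ⟨⟨a, ha⟩, j⟩ := q
  obtain rfl : a = m + 1 := h
  exact V.van m j

theorem cl_van' (hA : Monotone A) (q : V.Ix K) {m : ℕ} (h : m < sc q) :
    cl q ∈ (On (A m)).van k k (i + 1) := by
  obtain ⟨l, hl⟩ := Nat.exists_eq_add_of_lt h
  exact van_mono (hA (Nat.le_add_right m l)) (cl_van q hl)

theorem single_eq_zero (a : Fin (K + 1)) (x : Fin (V.n a) → k) {q : V.Ix K} (h : sc q ≠ a) :
    Pi.single (M := fun b : Fin (K + 1) => Fin (V.n b) → k) a x q.1 q.2 = 0 := by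
  rw [Pi.single_eq_of_ne fun e => h (congrArg Fin.val e)]; rfl

theorem sum_single {M : Type} [AddCommGroup M] [Module k M] (a : Fin (K + 1)) (x : Fin (V.n a) → k)
    (f : V.Ix K → M) : ∑ q : V.Ix K, (Pi.single (M := fun b : Fin (K + 1) => Fin (V.n b) → k) a x
      q.1 q.2) • f q = ∑ j, x j • f ⟨a, j⟩ := by
  rw [Fintype.sum_sigma, Finset.sum_eq_single a]
  · simp
  · intro b _ hb; simp [Pi.single_eq_of_ne hb]
  · simp

/-- **span**: classes on `B (m + 1)` are, on `B (m + 2)`, combinations of scale at most `m` -/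
theorem span (hB : Antitone B) {m : ℕ} (hm : m ≤ K) {φ : Co k (i + 1) X}
    (hφ : φ ∈ ZP k (B (m + 1)) k (i + 1)) : ∃ x : V.Ix K → k, (∀ q, m < sc q → x q = 0) ∧
      φ - ∑ q, x q • cl q ∈ BP k (B (m + 2)) k (i + 1) := by
  induction m generalizing φ with
  | zero =>
    obtain ⟨x, hx⟩ := V.sp0 φ hφ
    exact ⟨fun q => Pi.single (M := fun b : Fin (K + 1) => Fin (V.n b) → k) ⟨0, K.succ_pos⟩ x q.1 q.2,
      fun q hq => single_eq_zero ⟨0, K.succ_pos⟩ x hq.ne', by rw [sum_single]; exact hx⟩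
  | succ m ih =>
    obtain ⟨ψ, h1, x, hx⟩ := V.sp m φ hφ
    obtain ⟨y, h2, h3⟩ := ih (by omega) h1
    refine ⟨fun q => y q + Pi.single (M := fun b : Fin (K + 1) => Fin (V.n b) → k)
      ⟨m + 1, by omega⟩ x q.1 q.2, fun q hq => ?_, ?_⟩
    · beta_reduce
      rw [h2 q (by omega), single_eq_zero ⟨m + 1, by omega⟩ x hq.ne', add_zero]
    · simp only [add_smul, Finset.sum_add_distrib]
      rw [sum_single]
      have := add_mem hx (BP_mono (hB (Nat.le_succ _)) h3)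
      convert this using 1
      simp only [cl]; abel

/-- the cut class -/
def cc (C : ℕ → Set X) (q : V.Ix K) : Co k (i + 1) X := ct (C (sc q)) (cl q)

variable {C : ℕ → Set X}

theorem cc_Cc (q : V.Ix K) : cc C q ∈ Cc k univ k (i + 1) := ct_Cc (cl_mem q).1

theorem cc_sub (q : V.Ix K) : cc C q - cl q ∈ (On (C (sc q))).van k k (i + 1) := ct_sub

theorem cc_van (q : V.Ix K) : cc C q ∈ (On (C (sc q))ᶜ).van k k (i + 1) := ct_van

theorem cc_ZP (hC : ∀ m, C m ⊆ B (m + 1)) (q : V.Ix K) : cc C q ∈ ZP k (C (sc q)) k (i + 1) :=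
  ct_ZP (cl_mem q) (hC _)

theorem cc_ZP' (q : V.Ix K) : cc C q ∈ ZP k (C (sc q))ᶜ k (i + 1) := ct_ZP' (cl_mem q).1

theorem cc_van' (hA : Monotone A) (q : V.Ix K) {m : ℕ} (h : m < sc q) :
    cc C q ∈ (On (A m)).van k k (i + 1) := ct_mem_van (cl_van' hA q h)

/-- span by the cut classes -/
theorem span_cc (hB : Antitone B) (hC : ∀ m, B (m + 2) ⊆ C m) {m : ℕ} (hm : m ≤ K)
    {φ : Co k (i + 1) X} (hφ : φ ∈ ZP k (B (m + 1)) k (i + 1)) : ∃ x : V.Ix K → k,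
      (∀ q, m < sc q → x q = 0) ∧ φ - ∑ q, x q • cc C q ∈ BP k (B (m + 2)) k (i + 1) := by
  obtain ⟨x, h1, h2⟩ := span (V := V) hB hm hφ
  refine ⟨x, h1, ?_⟩
  have : ∑ q, x q • (cc C q - cl q) ∈ BP k (B (m + 2)) k (i + 1) := sum_mem fun q _ => by
    by_cases hq : m < sc q
    · simp [h1 q hq]
    · exact Submodule.smul_mem _ _ (van_le_BP (van_mono
        ((hB (by omega)).trans (hC (sc q))) (cc_sub q)))
  convert sub_mem h2 this using 1
  simp only [smul_sub, Finset.sum_sub_distrib]; abel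

/-- **span on a window** -/
theorem span_win {A' B' C' : ℕ → Set X} {V' : Var k i A' B'} (hB : Antitone B) (hB' : Antitone B')
    (hC : ∀ m, B (m + 2) ⊆ C m) (hC' : ∀ m, B' (m + 2) ⊆ C' m) (h0 : Hc0 k X k (i + 2)) {m : ℕ}
    (hm : m ≤ K) (o : IsOpen (B (m + 1))) (o' : IsOpen (B' (m + 1)))
    (hu : B (m + 1) ∪ B' (m + 1) = univ) {φ : Co k (i + 1) X}
    (hφ : φ ∈ ZP k (B (m + 1) ∩ B' (m + 1)) k (i + 1)) :
    ∃ (x : V.Ix K → k) (y : V'.Ix K → k), (∀ q, m < sc q → x q = 0) ∧ (∀ q, m < sc q → y q = 0) ∧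
      φ - (∑ q, x q • cc C q + ∑ q, y q • cc C' q) ∈ BP k (B (m + 2) ∩ B' (m + 2)) k (i + 1) := by
  obtain ⟨b, h1, h2⟩ := mv_surj o o' hu h0 hφ
  obtain ⟨x, a1, a2⟩ := span_cc (V := V) hB hC hm h2
  obtain ⟨y, b1, b2⟩ := span_cc (V := V') hB' hC' hm h1
  refine ⟨x, y, a1, b1, ?_⟩
  convert add_mem (BP_mono inter_subset_left a2) (BP_mono inter_subset_right b2) using 1
  abel

/-- **independence** of the coboundaries of the classes cut at `B (m + 1)`: `𝒱` covers the cut -/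
theorem ind_cob (hB : Antitone B) (h0 : Hc0 k X k (i + 1)) {m : ℕ} {R : Set X} {𝒱 : Set (Set X)}
    (o : IsOpen (B (m + 1))) (oR : IsOpen R) (oV : ∀ U ∈ 𝒱, IsOpen U) (hR : R ⊆ (B (m + 1))ᶜ)
    (hu : ∀ x, x ∉ B (m + 1) → x ∉ R → x ∈ ⋃₀ 𝒱) (x : Fin (V.n m) → k)
    (hx : ∑ j, x j • cob k (ct (B (m + 1)) (V.h m j)) ∈ (Sm 𝒱).van k k (i + 2)) (j : Fin (V.n m)) :
    x j = 0 := by
  set φ := ∑ j, x j • ct (B (m + 1)) (V.h m j) with hφ
  have e : cob k φ = ∑ j, x j • cob k (ct (B (m + 1)) (V.h m j)) := by simp [hφ]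
  have h1 : φ ∈ ZP k (B (m + 1)) k (i + 1) :=
    sum_mem fun j _ => Submodule.smul_mem _ _ (ct_ZP (V.mem m j) subset_rfl)
  have h2 : φ ∈ (On R).van k k (i + 1) :=
    sum_mem fun j _ => Submodule.smul_mem _ _ (van_mono hR ct_van)
  obtain ⟨ψ, a, b⟩ := zp_of_sm (𝒰 := insert (B (m + 1)) (insert R 𝒱)) (W := univ)
    (by rintro U (rfl | rfl | h); exacts [o, oR, oV U h])
    (fun y _ => by
      by_cases h : y ∈ B (m + 1)
      · exact ⟨_, .inl rfl, h⟩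
      by_cases h' : y ∈ R
      · exact ⟨_, .inr (.inl rfl), h'⟩
      obtain ⟨U, hU, hy⟩ := hu y h h'
      exact ⟨U, .inr (.inr hU), hy⟩) h1.1
    (Sb.Z_mono Sb.inf_le_right (by
      rw [Sb.mem_Z, Sm_insert, Sm_insert, Sb.van_sup, Sb.van_sup]
      exact ⟨h1.2, Sb.cob_mem h2, e ▸ hx⟩))
  have h3 : φ - ∑ j, x j • V.h m j ∈ (On (B (m + 1))).van k k (i + 1) := by
    rw [hφ, ← Finset.sum_sub_distrib]
    exact sum_mem fun j _ => by rw [← smul_sub]; exact Submodule.smul_mem _ _ ct_sub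
  refine V.ind m x (BP_mono (hB (Nat.le_succ _)) ?_) j
  have := sub_mem (add_mem (BP_mono (subset_univ _) (h0 a))
    (van_le_BP (Sb.van_mono (On_le_Sm (mem_insert _ _)) b))) (van_le_BP h3)
  convert this using 1
  abel

/-- the number of variables of scale at most `m` does not depend on `K` -/
theorem card_le (m : ℕ) : (Finset.univ.filter fun q : V.Ix K => sc q ≤ m).card ≤
    ∑ a ∈ Finset.range (m + 1), V.n a := by
  classical
  have : ∑ a ∈ Finset.range (m + 1), V.n a =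
      ((Finset.range (m + 1)).sigma fun a => (Finset.univ : Finset (Fin (V.n a)))).card := by simp
  rw [this]
  refine Finset.card_le_card_of_injOn (fun q => ⟨q.1, q.2⟩) (fun q hq => ?_) ?_
  · have : sc q ≤ m := by simpa using hq
    simpa [Nat.lt_succ_iff, sc] using this
  · rintro ⟨⟨a, ha⟩, j⟩ - ⟨⟨b, hb⟩, j'⟩ - e
    obtain ⟨rfl, e'⟩ := Sigma.mk.inj_iff.1 e
    obtain rfl := eq_of_heq e'
    rfl

end Var

/-- nested windows of constancy for both sides -/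
structure Win (k : Type) [Field k] (i : ℕ) (s : C(X, ℝ)) (l r : ℕ → ℝ) : Prop where
  ml : StrictMono l
  ar : StrictAnti r
  lt : ∀ m n, l m < r n
  cl : ∀ m, ∀ a ∈ Icc (l (m + 1)) (r (m + 1)), ∀ b ∈ Icc (l (m + 1)) (r (m + 1)),
    ZP k (lo s a) k (i + 1) ≤ ZP k (lo s b) k (i + 1) ⊔ BP k (lo s (l m)) k (i + 1)
  cr : ∀ m, ∀ a ∈ Icc (l (m + 1)) (r (m + 1)), ∀ b ∈ Icc (l (m + 1)) (r (m + 1)),
    ZP k (hi s a) k (i + 1) ≤ ZP k (hi s b) k (i + 1) ⊔ BP k (hi s (r m)) k (i + 1)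

/-- tameness of both sides between the levels `a` and `b` -/
structure Tm (k : Type) [Field k] (i : ℕ) (s : C(X, ℝ)) (a b : ℝ) : Prop where
  lo : ∀ t t', a ≤ t → t < t' → t' ≤ b → FR (ZP k (lo s t') k (i + 1)) (BP k (lo s t) k (i + 1))
  hi : ∀ t t', a ≤ t → t < t' → t' ≤ b → FR (ZP k (hi s t) k (i + 1)) (BP k (hi s t') k (i + 1))

variable {s s' : C(X, ℝ)} {l r : ℕ → ℝ} {a b : ℝ}

/-- windows exist, with any further dense property `Q` -/
theorem Tm.exists_win (h : Tm k i s a b) (hab : a < b) (Q : ℕ → ℝ → ℝ → ℝ → ℝ → Prop)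
    (hQ : ∀ n l r, a ≤ l → l < r → r ≤ b → Wd.DenseIn l r (Q n l r)) :
    ∃ l r : ℕ → ℝ, l 0 = a ∧ r 0 = b ∧ Win k i s l r ∧
      ∀ n, Q n (l n) (r n) (l (n + 1)) (r (n + 1)) := by
  obtain ⟨l, r, h1, h2, h3, h4, h5, h6⟩ := Wd.exists_nest_dense hab (fun n l r a b =>
    ((∀ x ∈ Icc a b, ∀ y ∈ Icc a b,
      ZP k (Wn.lo s x) k (i + 1) ≤ ZP k (Wn.lo s y) k (i + 1) ⊔ BP k (Wn.lo s l) k (i + 1)) ∧
    ∀ x ∈ Icc a b, ∀ y ∈ Icc a b,
      ZP k (Wn.hi s x) k (i + 1) ≤ ZP k (Wn.hi s y) k (i + 1) ⊔ BP k (Wn.hi s r) k (i + 1)) ∧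
      Q n l r a b) fun n l r h1 h2 h3 =>
    ((Wd.dense_fr (.inr fun _ _ _ _ h => ZP_mono (lo_mono h)) fun t ht =>
      h.lo l t h1 ht.1 (ht.2.le.trans h3)).and (Wd.dense_fr
        (.inl fun _ _ _ _ h => ZP_mono (hi_mono h)) fun t ht =>
          h.hi t r (h1.trans ht.1.le) ht.2 h3)).and (hQ n l r h1 h2 h3)
  exact ⟨l, r, h1, h2, ⟨h3, h4, h5, fun m => (h6 m).1.1, fun m => (h6 m).1.2⟩, fun n => (h6 n).2⟩

theorem lo_rev (e : ∀ x, s' x = 1 - s x) (t : ℝ) : lo s' (1 - t) = hi s t := by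
  ext x; simp only [lo, hi, mem_setOf_eq, e]; constructor <;> intro h <;> linarith

theorem hi_rev (e : ∀ x, s' x = 1 - s x) (t : ℝ) : hi s' (1 - t) = lo s t := by
  ext x; simp only [lo, hi, mem_setOf_eq, e]; constructor <;> intro h <;> linarith

/-- the reversed edge -/
theorem Win.rev (h : Win k i s l r) (e : ∀ x, s' x = 1 - s x) :
    Win k i s' (fun m => 1 - r m) fun m => 1 - l m := by
  refine ⟨fun _ _ hm => sub_lt_sub_left (h.ar hm) _, fun _ _ hm => sub_lt_sub_left (h.ml hm) _,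
    fun m n => sub_lt_sub_left (h.lt n m) _, fun m a ha b hb => ?_, fun m a ha b hb => ?_⟩
  · have := h.cr m (1 - a) ⟨by linarith [ha.2], by linarith [ha.1]⟩ (1 - b)
      ⟨by linarith [hb.2], by linarith [hb.1]⟩
    rwa [← lo_rev e, ← lo_rev e, ← lo_rev e, sub_sub_cancel, sub_sub_cancel] at this
  · have := h.cl m (1 - a) ⟨by linarith [ha.2], by linarith [ha.1]⟩ (1 - b)
      ⟨by linarith [hb.2], by linarith [hb.1]⟩
    rwa [← hi_rev e, ← hi_rev e, ← hi_rev e, sub_sub_cancel, sub_sub_cancel] at this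

theorem Tm.rev (h : Tm k i s a b) (e : ∀ x, s' x = 1 - s x) : Tm k i s' (1 - b) (1 - a) := by
  refine ⟨fun t t' h1 h2 h3 => ?_, fun t t' h1 h2 h3 => ?_⟩
  · have := h.hi (1 - t') (1 - t) (by linarith) (by linarith) (by linarith)
    rwa [← lo_rev e, ← lo_rev e, sub_sub_cancel, sub_sub_cancel] at this
  · have := h.lo (1 - t') (1 - t) (by linarith) (by linarith) (by linarith)
    rwa [← hi_rev e, ← hi_rev e, sub_sub_cancel, sub_sub_cancel] at this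

theorem Win.mono_l (h : Win k i s l r) : Monotone fun m => lo s (l m) :=
  fun _ _ hm => lo_mono (h.ml.monotone hm)

theorem Win.anti_r (h : Win k i s l r) : Antitone fun m => lo s (r m) :=
  fun _ _ hm => lo_mono (h.ar.antitone hm)

theorem Win.fr (h : Win k i s l r) (t : Tm k i s (l 0) (r 0)) (m : ℕ) :
    FR (ZP k (lo s (r m)) k (i + 1)) (BP k (lo s (r (m + 1))) k (i + 1)) :=
  t.lo _ _ (h.lt _ _).le (h.ar (Nat.lt_succ_self m)) (h.ar.antitone (Nat.zero_le m))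

/-- the variables of the lower side -/
theorem Win.exists_var (h : Win k i s l r) (t : Tm k i s (l 0) (r 0)) {n₀ : ℕ}
    (x₀ : Fin n₀ → Co k (i + 1) X) (h1 : ∀ j, x₀ j ∈ ZP k (lo s (r 1)) k (i + 1))
    (h2 : ∀ φ ∈ ZP k (lo s (r 1)) k (i + 1), ∃ x : Fin n₀ → k,
      φ - ∑ j, x j • x₀ j ∈ BP k (lo s (r 2)) k (i + 1))
    (h3 : ∀ x : Fin n₀ → k, ∑ j, x j • x₀ j ∈ BP k (lo s (r 2)) k (i + 1) → ∀ j, x j = 0) :
    ∃ V : Var k i (fun m => lo s (l m)) fun m => lo s (r m),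
      ∃ e : V.n 0 = n₀, ∀ j, V.h 0 j = x₀ (j.cast e) :=
  Wv.exists_var h.anti_r (fun m => h.cl m _ ⟨(h.lt _ _).le, h.ar.antitone (Nat.le_succ _)⟩ _
    ⟨(h.lt _ _).le, le_rfl⟩) (fun m => h.fr t (m + 2)) x₀ h1 h2 h3

end Crest.Agent.N255.Wv

end
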