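import Crest.Agent.N255.Wv.Fam
import Crest.Agent.N255.Wn.Ph
import Crest.Agent.N255.Core.TypK

/-!
# Row 255 (helper77): windows and wall variables on the end structure
-/

set_option autoImplicit false
open Set

noncomputable section

namespace Crest.Agent.N255.Wv

open Tp Wn En Pt Lv _root_.N255.Core

variable {ι : Type} {F : Subgroup (FreeGroup ι)} (ka : Wo F → Bool)

/-- the class of an oriented edge -/
def oc (e : Ed ι) : Wo F × Bool := (cl F e, tk ka e)

/-- the representative of a class (`true`: the `M` side lies behind) -/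
def orp (a : Wo F × Bool) : Ed ι := if a.2 = true then rk ka a.1 else rev (rk ka a.1)

/-- the translation from the representative -/
def otf (e : Ed ι) : F := Classical.choose (exists_rk ka (ek ka e))

theorem ek_rev (e : Ed ι) : ek ka (rev e) = ek ka e := by
  cases h : tk ka e
  · rw [ek_false ka h, ek_true ka (by rw [tk_rev, h]; rfl)]
  · rw [ek_true ka h, ek_false ka (by rw [tk_rev, h]; rfl), rev_rev]

theorem otf_rev (e : Ed ι) : otf ka (rev e) = otf ka e := by simp only [otf, ek_rev]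

theorem otf_rk (e : Ed ι) : (otf ka e).1 • rk ka (cl F e) = ek ka e := by
  have : (otf ka e).1 • rk ka (cl F (ek ka e)) = ek ka (ek ka e) :=
    Classical.choose_spec (exists_rk ka (ek ka e))
  rwa [cl_ek, ek_true ka (tk_ek ka e)] at this

theorem oc_rev (e : Ed ι) : oc ka (rev e) = (cl F e, !tk ka e) := by rw [oc, cl_rev, tk_rev]

theorem oc_orp (a : Wo F × Bool) : oc ka (orp ka a) = a := by
  obtain ⟨a, _ | _⟩ := a
  · simp [orp, oc_rev]
  · simp [orp, oc]

theorem otf_orp (e : Ed ι) : (otf ka e).1 • orp ka (oc ka e) = e := by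
  have := otf_rk ka e
  cases h : tk ka e
  · rw [ek_false ka h] at this
    simp only [orp, oc, h, Bool.false_eq_true, if_false]
    rw [← rev_smul, this, rev_rev]
  · rw [ek_true ka h] at this
    simpa only [orp, oc, h, if_true] using this

/-- levels of the oriented classes -/
def olv (l r : Wo F → ℕ → ℝ) (a : Wo F × Bool) (m : ℕ) : ℝ := if a.2 = true then l a.1 m else 1 - r a.1 m

variable {S : Type} [DecidableEq ι] [MulAction (FreeGroup ι) S] {w : Wl ι S} {X k : Type}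
  [TopologicalSpace X] [Field k] [MulAction F X] {i : ℕ}

/-- the layout given by windows `l a`, `r a` for the level functions of the representatives `rk ka a` -/
def lay (N : Lev w F X) (l r : Wo F → ℕ → ℝ) (hw : ∀ a, Win k i (N.s (rk ka a)) (l a) (r a))
    (ht : ∀ a, Tm k i (N.s (rk ka a)) (l a 0) (r a 0)) (h0 : ∀ a, 0 ≤ l a 0) (h1 : ∀ a, r a 0 ≤ 1) :
    Lay k i F X (Ed ι) (Wo F × Bool) where
  s := N.s
  c := oc ka
  rep := orp ka
  tf := otf ka
  l := olv l r
  r := olv r l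
  s_smul := N.s_smul
  c_smul f e := Prod.ext (cl_smul f e) (tk_smul ka f e)
  c_rep := oc_orp ka
  tf_rep := otf_orp ka
  win := by
    rintro ⟨a, _ | _⟩
    · exact (hw a).rev (N.s_rev _)
    · exact hw a
  tm := by
    rintro ⟨a, _ | _⟩
    · exact (ht a).rev (N.s_rev _)
    · exact ht a
  l0 := by
    rintro ⟨a, _ | _⟩
    · exact sub_nonneg.2 (h1 a)
    · exact h0 a
  r0 := by
    rintro ⟨a, _ | _⟩
    · exact sub_le_self _ (h0 a)
    · exact h1 a

omit [DecidableEq ι] in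
theorem olv_rev (l r : Wo F → ℕ → ℝ) (e : Ed ι) (m : ℕ) :
    olv l r (oc ka (rev e)) m = 1 - olv r l (oc ka e) m := by
  rw [oc_rev, oc]
  cases tk ka e <;> simp [olv]

section lay

variable {ka} {N : Lev w F X} {l r : Wo F → ℕ → ℝ} {hw : ∀ a, Win k i (N.s (rk ka a)) (l a) (r a)}
  {ht : ∀ a, Tm k i (N.s (rk ka a)) (l a 0) (r a 0)} {h0 : ∀ a, 0 ≤ l a 0} {h1 : ∀ a, r a 0 ≤ 1}

theorem lay_A_rev (e : Ed ι) (m : ℕ) : (lay ka N l r hw ht h0 h1).A (rev e) m =
    hi (N.s e) (olv r l (oc ka e) m) :=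
  (congrArg (lo (N.s (rev e))) (olv_rev ka l r e m)).trans (Wv.lo_rev (N.s_rev e) _)

theorem lay_B_rev (e : Ed ι) (m : ℕ) : (lay ka N l r hw ht h0 h1).B (rev e) m =
    hi (N.s e) (olv l r (oc ka e) m) :=
  (congrArg (lo (N.s (rev e))) (olv_rev ka r l e m)).trans (Wv.lo_rev (N.s_rev e) _)

theorem lay_nx {e e' : Ed ι} (h : Bey (rev e) e') : (lay ka N l r hw ht h0 h1).Nx e (rev e') :=
  fun x => by
    have := N.s_bey _ _ x h
    show N.s e x + 1 ≤ N.s (rev e') x
    rw [N.s_rev] at this ⊢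
    linarith

/-- the far sides of two edges pointing away from each other are disjoint -/
theorem lay_disj {e e' : Ed ι} (h : Bey (rev e) e') (m m' : ℕ) :
    Disjoint ((lay ka N l r hw ht h0 h1).B (rev e) m) ((lay ka N l r hw ht h0 h1).B (rev e') m') := by
  refine disjoint_left.2 fun x hx hx' => ?_
  have h2 : N.s e x < _ := (lay_nx h).sub m m' hx'
  rw [lay_B_rev] at hx
  exact (lt_trans hx h2).false

end lay

variable [T2Space X] [ChartedSpace (EE 4) X] (E : End w F k X) (M : Md w) {O : Ori k 3 X} (hO : O.ND)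
  (hX : Acy k (univ : Set X) univ)
include M hO hX

theorem tm_end (hi : i ≤ 1) (e : Ed ι) {a b : ℝ} (ha : 0 ≤ a) (hb : b ≤ 1) : Tm k i (E.s e) a b :=
  ⟨fun _ _ h1 h2 h3 => phi_lo E M hO hX e (ha.trans h1) h2 (h3.trans hb) hi,
    fun _ _ h1 h2 h3 => phi_hi E M hO hX e (ha.trans h1) h2 (h3.trans hb) hi⟩

/-- windows in prescribed intervals, with further dense properties -/
theorem exists_win_end (hi : i ≤ 1) (a b : Wo F → ℝ) (ha : ∀ c, 0 ≤ a c) (hab : ∀ c, a c < b c)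
    (hb : ∀ c, b c ≤ 1) (Q : Wo F → ℕ → ℝ → ℝ → ℝ → ℝ → Prop)
    (hQ : ∀ c n l r, a c ≤ l → l < r → r ≤ b c → Wd.DenseIn l r (Q c n l r)) :
    ∃ l r : Wo F → ℕ → ℝ, (∀ c, l c 0 = a c) ∧ (∀ c, r c 0 = b c) ∧
      (∀ c, Win k i (E.s (rk ka c)) (l c) (r c)) ∧ (∀ c, Tm k i (E.s (rk ka c)) (l c 0) (r c 0)) ∧
      ∀ c n, Q c n (l c n) (r c n) (l c (n + 1)) (r c (n + 1)) := by
  choose l r h1 h2 h3 h4 using fun c =>
    (tm_end E M hO hX hi (rk ka c) (ha c) (hb c)).exists_win (hab c) (Q c) (hQ c)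
  exact ⟨l, r, h1, h2, h3, fun c => by
    rw [h1, h2]; exact tm_end E M hO hX hi _ (ha c) (hb c), h4⟩

/-- **windows and variables** -/
theorem exists_fam_end [Finite ι] [F.FiniteIndex] [ContinuousConstSMul F X] (hi : i ≤ 1)
    (a b : Wo F → ℝ) (ha : ∀ c, 0 ≤ a c) (hab : ∀ c, a c < b c) (hb : ∀ c, b c ≤ 1) :
    ∃ (l r : Wo F → ℕ → ℝ) (hw : ∀ c, Win k i (E.s (rk ka c)) (l c) (r c))
      (ht : ∀ c, Tm k i (E.s (rk ka c)) (l c 0) (r c 0)) (h0 : ∀ c, 0 ≤ l c 0) (h1 : ∀ c, r c 0 ≤ 1),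
      (∀ c, l c 0 = a c) ∧ (∀ c, r c 0 = b c) ∧ Nonempty (Fam (lay ka E.toLev l r hw ht h0 h1)) := by
  obtain ⟨l, r, h1, h2, h3, h4, -⟩ := exists_win_end ka E M hO hX hi a b ha hab hb
    (fun _ _ _ _ _ _ => True) fun _ _ _ _ _ _ _ => Wd.DenseIn.triv
  exact ⟨l, r, h3, h4, fun c => h1 c ▸ ha c, fun c => h2 c ▸ hb c, h1, h2, Lay.exists_fam _⟩

end Crest.Agent.N255.Wv

end
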